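import Vale.Agent.P092.Q.Top
import Vale.Agent.P092.H200.HeightL
import Vale.Agent.P092.H160.Bridge
import Vale.Agent.P092.H160.Canon
import Vale.Agent.P092.SR.St

/-!
P092, project Q (helper157): from the blocks to the conclusion of the final statement, for any group
with the data `Grp` at the places.
-/

set_option linter.all false

open scoped InnerProductSpace Topology ENNReal
open Filter ContinuousLinearMap MeasureTheory

namespace Vale.Agent.P092.Q

open Vale.Agent.P092.H160 Vale.Agent.P092.SR Vale.Agent.P092.H776 Vale.Agent.P092.H156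
open Vale.Agent.P092.PA (FacS Lat)

/-- The data at the places: `Γ` is a lattice in the product of the factors `G i`. -/
structure Grp {Γ I : Type} [Group Γ] {G : I → Type} [∀ i, Group (G i)]
    [∀ i, TopologicalSpace (G i)] [MeasurableSpace (∀ i, G i)] (p : ∀ i, Γ →* G i)
    (m : Measure (∀ i, G i)) : Prop where
  lat : Lat (MonoidHom.pi p) m
  fac : ∀ i, FacS (G i)
  dense : ∀ i, DenseRange (p i)
  esc : ∀ i k, i ≠ k → Esc (p i) (p k)
  inj : ∀ g, (∀ i, p i g = 1) → g = 1

variable {Γ I : Type} [Group Γ] [Fintype I] {G : I → Type}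
  [∀ i, Group (G i)] [∀ i, TopologicalSpace (G i)] [∀ i, IsTopologicalGroup (G i)]
  [∀ i, LocallyCompactSpace (G i)] [∀ i, SecondCountableTopology (G i)] [∀ i, T2Space (G i)]
  [∀ i, MeasurableSpace (G i)] [∀ i, BorelSpace (G i)]

/-- A lattice is countable. -/
theorem Grp.countable {p : ∀ i, Γ →* G i} {m : Measure (∀ i, G i)} (h : Grp p m) :
    Countable Γ := by
  have h1 : (⋃ n, {v : Γ | MonoidHom.pi p v ∈ compactCovering (∀ i, G i) n}) = Set.univ := by
    rw [Set.eq_univ_iff_forall]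
    intro v
    have h2 : MonoidHom.pi p v ∈ ⋃ n, compactCovering (∀ i, G i) n := by
      rw [iUnion_compactCovering]
      exact Set.mem_univ _
    obtain ⟨n, hn⟩ := Set.mem_iUnion.1 h2
    exact Set.mem_iUnion.2 ⟨n, hn⟩
  rw [← Set.countable_univ_iff, ← h1]
  exact Set.countable_iUnion fun n => (h.lat.fin _ (isCompact_compactCovering _ n)).countable

/-- Ergodicity at all places, for all frames. -/
def ErgAll (p : ∀ i, Γ →* G i) : Prop :=
  ∀ (Λ : Type) [Group Λ] [Countable Λ] (α : Γ →* (Ell2 Λ →L[ℂ] Ell2 Λ)), SR.St.ICC Λ → Frame α →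
    ∀ i, H805.Erg (p i) (RRR α) (VV α) (dl (1 : Λ × Λ))

/-- For every source place one nonzero smooth field at some target place of the first leg. -/
def NeAll (p : ∀ i, Γ →* G i) (μ : ∀ i, Measure (G i)) : Prop :=
  ∀ (Λ : Type) [Group Λ] [Countable Λ] (α : Γ →* (Ell2 Λ →L[ℂ] Ell2 Λ)), SR.St.ICC Λ → Frame α →
    ∀ i, ∃ j a, Sm.Smo ((p j).comp (MonoidHom.fst Γ Γ)) (p i) (RRR α) (VV α)
      (dl (1 : Λ × Λ)) (μ j) a ∧ a ≠ 0

/-- **The conclusion of project Q for a group with the data `Grp`.** -/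
theorem Blk.super (B : Blk) (hicc : SR.St.ICC Γ) {p : ∀ i, Γ →* G i}
    (μ : ∀ i, Measure (G i)) [∀ i, (μ i).IsHaarMeasure] [∀ i, (μ i).IsMulRightInvariant]
    {m : Measure (∀ i, G i)} (h : Grp p m) (erg : ErgAll p) (ne : NeAll p μ) :
    SR.St.Super Γ := by
  intro Λ _ _ hΛ θ
  haveI := h.countable
  have hα : Frame (alphaOf (toAlg θ)) := frame_of_iso hicc (toAlg θ)
  obtain ⟨w, hw, hwg⟩ := B.top hα p μ m h.lat h.fac h.dense h.esc h.inj (erg Λ _ hΛ hα)
    (ne Λ _ hΛ hα)
  obtain ⟨c, hc, hp4⟩ := H200.HeightL.heightStmt _ hα w hw hwg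
  exact canonical_iff θ (canonical_of_form _ (canon_of_p4 hα hicc hc hp4))

end Vale.Agent.P092.Q
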