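import Vale.Agent.P092.SR.St

/-!
P092, project Q (helper157): the class of groups of the final statement.
-/

open Vale.Agent.P092.H160.St Vale.Agent.P092.H103.St Vale.Agent.P092.H515.St Vale.Agent.P092.SR.St

namespace Vale.Agent.P092.Q.St

/-- `Γ` is an ICC lattice in a product of finitely many groups `SL_n(k)`, `n ≥ 2`, `k` a local field,
whose projection to every factor is dense. -/
def ProductLattice (Γ : Type) [Group Γ] : Prop :=
  ICC Γ ∧ ∃ (I : Type) (_ : Fintype I) (k : I → Type) (_ : ∀ j, NontriviallyNormedField (k j))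
    (n : I → ℕ) (i : Γ →* ∀ j, Matrix.SpecialLinearGroup (Fin (n j)) (k j)),
    (∀ j, ProperSpace (k j)) ∧ (∀ j, LocK (k j)) ∧ (∀ j, 2 ≤ n j) ∧ Function.Injective i ∧
    IsLattice i.range ∧ ∀ j, DenseRange fun g => i g j

end Vale.Agent.P092.Q.St
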