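import Vale.Agent.P092.Q.Canon
import Vale.Agent.P092.Q.St
import Vale.Agent.P092.H133.Transp
import Vale.Agent.P092.H971.PlcSL

/-!
P092, project Q (helper157): the final statement from the blocks.
-/

set_option linter.all false

open MeasureTheory Filter Topology
open Vale.Agent.P092.H160 Vale.Agent.P092.H160.St Vale.Agent.P092.H103.St Vale.Agent.P092.H515.St
open Vale.Agent.P092.PA (FacS Lat)

namespace Vale.Agent.P092.Q

open Vale.Agent.P092.SR Vale.Agent.P092.SR.St Vale.Agent.P092.Q.St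
open Vale.Agent.P092.H971 (pj pjq)

/-- [Q-GRP] the group data. -/
def GrpStmt : Prop :=
  ∀ (I : Type) [Fintype I] (n : I → ℕ) (k : I → Type) [∀ i, NontriviallyNormedField (k i)]
    [∀ i, ProperSpace (k i)] [∀ i, MeasurableSpace (PSLk (n i) (k i))]
    [∀ i, BorelSpace (PSLk (n i) (k i))], (∀ i, LocK (k i)) → (∀ i, 2 ≤ n i) →
    ∀ Γ : Subgroup (∀ i, Matrix.SpecialLinearGroup (Fin (n i)) (k i)), IsLattice Γ →
    (∀ i, DenseRange (pj Γ i)) → SR.St.ICC Γ → ∃ m, Grp (pjq Γ) m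

/-- [Q-ERG] ergodicity at all places. -/
def ErgStmt : Prop :=
  ∀ (I : Type) [Fintype I] (n : I → ℕ) (k : I → Type) [∀ i, NontriviallyNormedField (k i)]
    [∀ i, ProperSpace (k i)], (∀ i, LocK (k i)) → (∀ i, 2 ≤ n i) →
    ∀ Γ : Subgroup (∀ i, Matrix.SpecialLinearGroup (Fin (n i)) (k i)), IsLattice Γ →
    (∀ i, DenseRange (pj Γ i)) → SR.St.ICC Γ → ErgAll (pjq Γ)

/-- [Q-NE] nonvanishing. -/
def NeStmt : Prop :=
  ∀ (I : Type) [Fintype I] (n : I → ℕ) (k : I → Type) [∀ i, NontriviallyNormedField (k i)]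
    [∀ i, ProperSpace (k i)] [∀ i, MeasurableSpace (PSLk (n i) (k i))]
    [∀ i, BorelSpace (PSLk (n i) (k i))] (μ : ∀ i, Measure (PSLk (n i) (k i)))
    [∀ i, (μ i).IsHaarMeasure] [∀ i, (μ i).IsMulRightInvariant], (∀ i, LocK (k i)) →
    (∀ i, 2 ≤ n i) →
    ∀ Γ : Subgroup (∀ i, Matrix.SpecialLinearGroup (Fin (n i)) (k i)), IsLattice Γ →
    (∀ i, DenseRange (pj Γ i)) → SR.St.ICC Γ → NeAll (pjq Γ) μ

/-- **The final statement, subgroup form.** -/
theorem Blk.sub (B : Blk) (hG : GrpStmt) (hE : ErgStmt) (hN : NeStmt) {I : Type} [Fintype I]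
    (n : I → ℕ) (k : I → Type) [∀ i, NontriviallyNormedField (k i)]
    [∀ i, ProperSpace (k i)] (hk : ∀ i, LocK (k i)) (hn : ∀ i, 2 ≤ n i)
    (Γ : Subgroup (∀ i, Matrix.SpecialLinearGroup (Fin (n i)) (k i))) (hΓ : IsLattice Γ)
    (hd : ∀ i, DenseRange (pj Γ i)) (hicc : SR.St.ICC Γ) : Super Γ := by
  letI : ∀ i, MeasurableSpace (PSLk (n i) (k i)) := fun i => borel _
  haveI : ∀ i, BorelSpace (PSLk (n i) (k i)) := fun i => ⟨rfl⟩
  obtain ⟨m, h⟩ := hG I n k hk hn Γ hΓ hd hicc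
  haveI := fun i => (h.fac i).top
  haveI := fun i => (h.fac i).lc
  haveI := fun i => (h.fac i).sc
  haveI := fun i => (h.fac i).t2
  haveI : ∀ i, (Measure.haar : Measure (PSLk (n i) (k i))).IsMulRightInvariant := fun i =>
    (h.fac i).isMulRightInvariant _
  exact B.super hicc (fun i => Measure.haar) h (hE I n k hk hn Γ hΓ hd hicc)
    (hN I n k (fun i => Measure.haar) hk hn Γ hΓ hd hicc)

/-- **The final statement.** -/
theorem Blk.final (B : Blk) (hG : GrpStmt) (hE : ErgStmt) (hN : NeStmt) (Γ : Type) [Group Γ]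
    (h : ProductLattice Γ) : Super Γ := by
  obtain ⟨hicc, I, _, k, _, n, i, hp, hk, hn, hi, hlat, hd⟩ := h
  haveI := hp
  have e : Γ ≃* i.range := MonoidHom.ofInjective hi
  have h1 : Super i.range := B.sub hG hE hN n k hk hn i.range hlat (fun j => by
    refine (hd j).mono ?_
    rintro _ ⟨g, rfl⟩
    exact ⟨⟨i g, g, rfl⟩, rfl⟩) fun g hg => H133.icc_equiv e hicc g hg
  intro Λ _ _ hΛ θ
  exact H133.canonical_transS e θ (h1 Λ hΛ (H133.transS e θ))

end Vale.Agent.P092.Q
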