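import Vale.Agent.P092.Q.St
import Vale.Agent.P092.H387.ExN4
import Vale.Agent.P092.H387.ExN6

/-!
P092, project Q (helper157): `SL_n(ℤ[1/N])`, `n ≥ 3` odd, `N ≥ 2`, is in the class of the final
statement (the work is helper387's).
-/

set_option linter.all false

open Set Filter Topology Matrix
open Vale.Agent.P092.H515.St Vale.Agent.P092.SR.St Vale.Agent.P092.Q.St

namespace Vale.Agent.P092.Q

open Vale.Agent.P092.H387.N

theorem locK_KK (N : ℕ) : ∀ i : Option (PF N), LocK (KK N i)
  | none => LocK.real (k := ℝ) (RingEquiv.refl ℝ) fun x => rfl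
  | some p => LocK.ultra (k := ℚ_[p.1]) inferInstance

theorem exists_other (N : ℕ) [hN : Fact (1 < N)] (i : Option (PF N)) : ∃ j, i ≠ j := by
  cases i with
  | none =>
    obtain ⟨p, hp⟩ := (Nat.nonempty_primeFactors (n := N)).2 hN.out
    exact ⟨some ⟨p, hp⟩, by simp⟩
  | some p => exact ⟨none, by simp⟩

theorem productLattice_SL (n N : ℕ) (hn : Odd n) (h3 : 3 ≤ n) (hN : 2 ≤ N) :
    ProductLattice (SpecialLinearGroup (Fin n) (Localization.Away (N : ℤ))) := by
  haveI : Fact (1 < N) := ⟨hN⟩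
  obtain ⟨m, rfl⟩ : ∃ m, n = m + 1 := ⟨n - 1, by omega⟩
  refine ⟨iccN N hn, Option (PF N), inferInstance, KK N, instNNF N, fun _ => m + 1,
    diaN (m + 1) N, instPK N, locK_KK N, fun _ => (by omega : 2 ≤ m + 1), diaN_injective (m + 1) N,
    isLattice_GamN m N, fun i => ?_⟩
  obtain ⟨j, hj⟩ := exists_other N i
  have h1 := denseRange_diaN (m + 1) N j
  have h2 : Function.Surjective fun x : (∀ i : {i : Option (PF N) // i ≠ j}, GK (m + 1) N i.1) =>
      x ⟨i, hj⟩ := fun y => ⟨fun i' => if h : i'.1 = i then h ▸ y else 1, by simp⟩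
  exact h2.denseRange.comp h1 (continuous_apply _)

end Vale.Agent.P092.Q
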