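import Vale.Agent.P092.H715.QDefs
import Vale.Agent.P092.PA.Fac

/-!
P092, project Q (W*-superrigidity for lattices in products, all local fields): the literal statements
of the abstract blocks (helper157; text: helper715, board 3658-3660).

Letters: `Dbl`, `fl`, `F1`, `TwS` of `H715/QDefs.lean`, `Smo`, `Frm`, `Fd` of `H156/Sm.lean`, `FacS`
and `Lat` of `PA`.
-/

set_option linter.all false

open MeasureTheory Filter Topology ContinuousLinearMap
open scoped InnerProductSpace ENNReal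

namespace Vale.Agent.P092.Q

open Vale.Agent.P092.H160 (RegRep Cmm)
open Vale.Agent.P092.H156
open Vale.Agent.P092.H156.Sm (Frm Fd Smo ip)
open Vale.Agent.P092.H715.Q (Dbl fl F1 TwS)
open Vale.Agent.P092.PA (FacS Lat)

/-- A sequence which tends to `1` at the first place and to infinity at the second place. -/
def Esc {Γ H₁ H₂ : Type} [Group Γ] [Group H₁] [TopologicalSpace H₁] [Group H₂] [TopologicalSpace H₂]
    (κ₁ : Γ →* H₁) (κ₂ : Γ →* H₂) : Prop :=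
  ∃ w : ℕ → Γ, Tendsto (fun n => κ₁ (w n)) atTop (𝓝 1) ∧
    Tendsto (fun n => κ₂ (w n)) atTop (cocompact H₂)

/-- [Q-MATCH] a target-finite field at the places `(κ₁, p)` and a source-finite field at the places
`(κ₂, p)` do not both exist, for different source places. -/
def MatStmt : Prop :=
  ∀ (Γ X Y K G H₁ H₂ : Type) [Group Γ] [Countable Γ] [Group X] [Countable X] [Group Y]
    [Countable Y] [NormedAddCommGroup K] [InnerProductSpace ℂ K] [CompleteSpace K]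
    [Group G] [TopologicalSpace G] [IsTopologicalGroup G] [LocallyCompactSpace G]
    [SecondCountableTopology G] [T2Space G] [MeasurableSpace G] [BorelSpace G]
    [Group H₁] [TopologicalSpace H₁] [IsTopologicalGroup H₁] [LocallyCompactSpace H₁]
    [SecondCountableTopology H₁] [T2Space H₁]
    [Group H₂] [TopologicalSpace H₂] [IsTopologicalGroup H₂] [LocallyCompactSpace H₂]
    [SecondCountableTopology H₂] [T2Space H₂] [MeasurableSpace H₂] [BorelSpace H₂]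
    (V W : Γ →* (K →L[ℂ] K)) (f : X →* Γ) (ρ : X →* (K →L[ℂ] K)) (f' : Y →* Γ)
    (ρ' : Y →* (K →L[ℂ] K)) (ω : K) (p : Γ →* G) (κ₁ : Γ →* H₁) (κ₂ : Γ →* H₂)
    (μ : Measure G) [μ.IsHaarMeasure] [μ.IsMulRightInvariant]
    (ν : Measure H₂) [ν.IsHaarMeasure] [ν.IsMulRightInvariant],
    Dbl V W f ρ f' ρ' ω → DenseRange p → DenseRange κ₁ → DenseRange κ₂ → Esc κ₁ κ₂ →
    F1 (p.comp f) κ₁ ρ V ω μ → F1 (κ₂.comp f') p ρ' W ω ν →
    (∃ a, Smo (p.comp f) κ₁ ρ V ω μ a ∧ a ≠ 0) → (∃ b, Smo (κ₂.comp f') p ρ' W ω ν b ∧ b ≠ 0) →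
    False

/-- [Q-2S] the two-sided algebra is not zero. -/
def TwoStmt : Prop :=
  ∀ (Γ X Y K G H : Type) [Group Γ] [Countable Γ] [Group X] [Countable X] [Group Y] [Countable Y]
    [NormedAddCommGroup K] [InnerProductSpace ℂ K] [CompleteSpace K]
    [Group G] [TopologicalSpace G] [IsTopologicalGroup G] [LocallyCompactSpace G]
    [SecondCountableTopology G] [T2Space G] [MeasurableSpace G] [BorelSpace G]
    [Group H] [TopologicalSpace H] [IsTopologicalGroup H] [LocallyCompactSpace H]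
    [SecondCountableTopology H] [T2Space H] [MeasurableSpace H] [BorelSpace H]
    (V W : Γ →* (K →L[ℂ] K)) (f : X →* Γ) (ρ : X →* (K →L[ℂ] K)) (f' : Y →* Γ)
    (ρ' : Y →* (K →L[ℂ] K)) (ω : K) (p : Γ →* G) (κ : Γ →* H)
    (μ : Measure G) [μ.IsHaarMeasure] [μ.IsMulRightInvariant]
    (ν : Measure H) [ν.IsHaarMeasure] [ν.IsMulRightInvariant],
    Dbl V W f ρ f' ρ' ω → DenseRange p → DenseRange κ →
    F1 (p.comp f) κ ρ V ω μ → F1 (κ.comp f') p ρ' W ω ν →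
    (∃ a, Smo (p.comp f) κ ρ V ω μ a ∧ a ≠ 0) → (∃ b, Smo (κ.comp f') p ρ' W ω ν b ∧ b ≠ 0) →
    ∃ a, TwS V f ρ ω p κ μ ν a ∧ a ≠ 0

/-- [Q-ALG] the two-sided fields are stable under adjoints, right translations and conjugation by
`V`. -/
def AlgStmt : Prop :=
  ∀ (Γ X Y K G H : Type) [Group Γ] [Countable Γ] [Group X] [Countable X] [Group Y] [Countable Y]
    [NormedAddCommGroup K] [InnerProductSpace ℂ K] [CompleteSpace K]
    [Group G] [TopologicalSpace G] [IsTopologicalGroup G] [LocallyCompactSpace G]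
    [SecondCountableTopology G] [T2Space G] [MeasurableSpace G] [BorelSpace G]
    [Group H] [TopologicalSpace H] [IsTopologicalGroup H] [LocallyCompactSpace H]
    [SecondCountableTopology H] [T2Space H] [MeasurableSpace H] [BorelSpace H]
    (V W : Γ →* (K →L[ℂ] K)) (f : X →* Γ) (ρ : X →* (K →L[ℂ] K)) (f' : Y →* Γ)
    (ρ' : Y →* (K →L[ℂ] K)) (ω : K) (p : Γ →* G) (κ : Γ →* H)
    (μ : Measure G) [μ.IsHaarMeasure] [μ.IsMulRightInvariant]
    (ν : Measure H) [ν.IsHaarMeasure] [ν.IsMulRightInvariant],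
    Dbl V W f ρ f' ρ' ω → DenseRange p → DenseRange κ →
    ∀ a, TwS V f ρ ω p κ μ ν a → TwS V f ρ ω p κ μ ν (fun x => adjoint (a x)) ∧
      (∀ y, TwS V f ρ ω p κ μ ν fun x => a (x * y)) ∧
      ∀ g, TwS V f ρ ω p κ μ ν fun x => V g * a x * V g⁻¹

/-- [Q-GAL] the vector fields `x ↦ a x ζ` are total. -/
def GalStmt : Prop :=
  ∀ (Γ X Y K G H : Type) [Group Γ] [Countable Γ] [Group X] [Countable X] [Group Y] [Countable Y]
    [NormedAddCommGroup K] [InnerProductSpace ℂ K] [CompleteSpace K]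
    [Group G] [TopologicalSpace G] [IsTopologicalGroup G] [LocallyCompactSpace G]
    [SecondCountableTopology G] [T2Space G] [MeasurableSpace G] [BorelSpace G]
    [Group H] [TopologicalSpace H] [IsTopologicalGroup H] [LocallyCompactSpace H]
    [SecondCountableTopology H] [T2Space H] [MeasurableSpace H] [BorelSpace H]
    (V W : Γ →* (K →L[ℂ] K)) (f : X →* Γ) (ρ : X →* (K →L[ℂ] K)) (f' : Y →* Γ)
    (ρ' : Y →* (K →L[ℂ] K)) (ω : K) (p : Γ →* G) (κ : Γ →* H)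
    (μ : Measure G) [μ.IsHaarMeasure] [μ.IsMulRightInvariant]
    (ν : Measure H) [ν.IsHaarMeasure] [ν.IsMulRightInvariant],
    Dbl V W f ρ f' ρ' ω → DenseRange p → DenseRange κ → FacS G → FacS H →
    F1 (p.comp f) κ ρ V ω μ → F1 (κ.comp f') p ρ' W ω ν →
    (∃ a, TwS V f ρ ω p κ μ ν a ∧ a ≠ 0) →
    ∀ ξ : Lp K 2 μ, (∀ a, TwS V f ρ ω p κ μ ν a → ∀ ζ, ∫ x, ⟪a x ζ, ξ x⟫_ℂ ∂μ = 0) → ξ = 0

/-- [Q-C1] Theorem C: the two-sided algebra is commutative. -/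
def C1Stmt : Prop :=
  ∀ (Γ X Y K G H : Type) [Group Γ] [Countable Γ] [Group X] [Countable X] [Group Y] [Countable Y]
    [NormedAddCommGroup K] [InnerProductSpace ℂ K] [CompleteSpace K]
    [Group G] [TopologicalSpace G] [IsTopologicalGroup G] [LocallyCompactSpace G]
    [SecondCountableTopology G] [T2Space G] [MeasurableSpace G] [BorelSpace G]
    [Group H] [TopologicalSpace H] [IsTopologicalGroup H] [LocallyCompactSpace H]
    [SecondCountableTopology H] [T2Space H] [MeasurableSpace H] [BorelSpace H]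
    (V W : Γ →* (K →L[ℂ] K)) (f : X →* Γ) (ρ : X →* (K →L[ℂ] K)) (f' : Y →* Γ)
    (ρ' : Y →* (K →L[ℂ] K)) (ω : K) (p : Γ →* G) (κ : Γ →* H)
    (μ : Measure G) [μ.IsHaarMeasure] [μ.IsMulRightInvariant]
    (ν : Measure H) [ν.IsHaarMeasure] [ν.IsMulRightInvariant],
    Dbl V W f ρ f' ρ' ω → DenseRange p → DenseRange κ → FacS G → FacS H →
    F1 (p.comp f) κ ρ V ω μ → F1 (κ.comp f') p ρ' W ω ν →
    (∃ a, TwS V f ρ ω p κ μ ν a ∧ a ≠ 0) →
    ∀ a b, TwS V f ρ ω p κ μ ν a → TwS V f ρ ω p κ μ ν b → ∀ x y, a x * b y = b y * a x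

/-- [Q-C2] Theorem C, pair version: the two-sided algebras of the two legs commute, for the same
source place. -/
def C2Stmt : Prop :=
  ∀ (Γ X Y₁ Y₂ K G₁ G₂ H : Type) [Group Γ] [Countable Γ] [Group X] [Countable X] [Group Y₁]
    [Countable Y₁] [Group Y₂] [Countable Y₂]
    [NormedAddCommGroup K] [InnerProductSpace ℂ K] [CompleteSpace K]
    [Group G₁] [TopologicalSpace G₁] [IsTopologicalGroup G₁] [LocallyCompactSpace G₁]
    [SecondCountableTopology G₁] [T2Space G₁] [MeasurableSpace G₁] [BorelSpace G₁]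
    [Group G₂] [TopologicalSpace G₂] [IsTopologicalGroup G₂] [LocallyCompactSpace G₂]
    [SecondCountableTopology G₂] [T2Space G₂] [MeasurableSpace G₂] [BorelSpace G₂]
    [Group H] [TopologicalSpace H] [IsTopologicalGroup H] [LocallyCompactSpace H]
    [SecondCountableTopology H] [T2Space H] [MeasurableSpace H] [BorelSpace H]
    (V R₁ R₂ : Γ →* (K →L[ℂ] K)) (f₁ f₂ : X →* Γ) (ρ : X →* (K →L[ℂ] K)) (f₁' : Y₁ →* Γ)
    (ρ₁' : Y₁ →* (K →L[ℂ] K)) (f₂' : Y₂ →* Γ) (ρ₂' : Y₂ →* (K →L[ℂ] K)) (ω : K)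
    (p₁ : Γ →* G₁) (p₂ : Γ →* G₂) (κ : Γ →* H)
    (μ₁ : Measure G₁) [μ₁.IsHaarMeasure] [μ₁.IsMulRightInvariant]
    (μ₂ : Measure G₂) [μ₂.IsHaarMeasure] [μ₂.IsMulRightInvariant]
    (ν : Measure H) [ν.IsHaarMeasure] [ν.IsMulRightInvariant],
    Dbl V R₁ f₁ ρ f₁' ρ₁' ω → Dbl V R₂ f₂ ρ f₂' ρ₂' ω → (∀ g h, R₁ g * R₂ h = R₂ h * R₁ g) →
    (∀ x, ρ x = R₁ (f₁ x) * R₂ (f₂ x)) → DenseRange p₁ → DenseRange p₂ → DenseRange κ →
    FacS G₁ → FacS G₂ → FacS H →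
    F1 (p₁.comp f₁) κ ρ V ω μ₁ → F1 (κ.comp f₁') p₁ ρ₁' R₁ ω ν →
    F1 (p₂.comp f₂) κ ρ V ω μ₂ → F1 (κ.comp f₂') p₂ ρ₂' R₂ ω ν →
    (∃ a, TwS V f₁ ρ ω p₁ κ μ₁ ν a ∧ a ≠ 0) → (∃ b, TwS V f₂ ρ ω p₂ κ μ₂ ν b ∧ b ≠ 0) →
    ∀ a b, TwS V f₁ ρ ω p₁ κ μ₁ ν a → TwS V f₂ ρ ω p₂ κ μ₂ ν b → ∀ x y, a x * b y = b y * a x

/-- [Q-C3] different source places (same leg or different legs: `ι'` is arbitrary): the two-sided
algebra at the source place `κ` commutes with the smooth fields at the source place `κ'`.  `Γ` is a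
lattice in `E` (a product of `H`, `H'` and other factors), `κ = π₁ ∘ q`, `κ' = π₂ ∘ q`. -/
def C3Stmt : Prop :=
  ∀ (Γ X Y K G G' H H' E : Type) [Group Γ] [Countable Γ] [Group X] [Countable X] [Group Y]
    [Countable Y] [NormedAddCommGroup K] [InnerProductSpace ℂ K] [CompleteSpace K]
    [Group G] [TopologicalSpace G] [IsTopologicalGroup G] [LocallyCompactSpace G]
    [SecondCountableTopology G] [T2Space G] [MeasurableSpace G] [BorelSpace G]
    [Group G'] [TopologicalSpace G'] [IsTopologicalGroup G'] [LocallyCompactSpace G']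
    [SecondCountableTopology G'] [T2Space G'] [MeasurableSpace G'] [BorelSpace G']
    [Group H] [TopologicalSpace H] [IsTopologicalGroup H] [LocallyCompactSpace H]
    [SecondCountableTopology H] [T2Space H] [MeasurableSpace H] [BorelSpace H]
    [Group H'] [TopologicalSpace H'] [IsTopologicalGroup H'] [LocallyCompactSpace H']
    [SecondCountableTopology H'] [T2Space H']
    [Group E] [TopologicalSpace E] [IsTopologicalGroup E] [LocallyCompactSpace E]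
    [SecondCountableTopology E] [T2Space E] [MeasurableSpace E] [BorelSpace E]
    (V W : Γ →* (K →L[ℂ] K)) (f : X →* Γ) (ρ : X →* (K →L[ℂ] K)) (f' : Y →* Γ)
    (ρ' : Y →* (K →L[ℂ] K)) (ω : K) (p : Γ →* G) (κ : Γ →* H) (κ' : Γ →* H') (ι' : X →* G')
    (q : Γ →* E) (π₁ : E →* H) (π₂ : E →* H')
    (μ : Measure G) [μ.IsHaarMeasure] [μ.IsMulRightInvariant]
    (μ' : Measure G') [μ'.IsHaarMeasure] [μ'.IsMulRightInvariant]
    (ν : Measure H) [ν.IsHaarMeasure] [ν.IsMulRightInvariant] (m : Measure E),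
    Dbl V W f ρ f' ρ' ω → DenseRange p → DenseRange κ → DenseRange κ' → DenseRange ι' →
    FacS G → FacS H → Continuous π₁ → Continuous π₂ → (∀ k : H, ∃ e : E, π₁ e = k ∧ π₂ e = 1) →
    (∀ g, κ g = π₁ (q g)) → (∀ g, κ' g = π₂ (q g)) → Lat q m →
    F1 (p.comp f) κ ρ V ω μ → F1 (κ.comp f') p ρ' W ω ν → F1 ι' κ' ρ V ω μ' →
    (∃ a, TwS V f ρ ω p κ μ ν a ∧ a ≠ 0) →
    ∀ a b, TwS V f ρ ω p κ μ ν a → Smo ι' κ' ρ V ω μ' b → ∀ x y, a x * b y = b y * a x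

/-- Conclusion of the analysis: a unit vector which is moved by `V g` to a multiple of a translate
under `ρ`. -/
def Mono {Γ X K : Type} [Group Γ] [Group X] [NormedAddCommGroup K] [InnerProductSpace ℂ K]
    [CompleteSpace K] (V : Γ →* (K →L[ℂ] K)) (ρ : X →* (K →L[ℂ] K)) : Prop :=
  ∃ w : K, ‖w‖ = 1 ∧ ∀ g, ∃ (x : X) (z : ℂ), ‖z‖ = 1 ∧ V g w = z • ρ x w

/-- [Q-END] commuting full integrable families at all places. -/
def EndStmt : Prop :=
  ∀ (Γ X K J : Type) [Group Γ] [Countable Γ] [Group X] [Countable X] [Fintype J]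
    [NormedAddCommGroup K] [InnerProductSpace ℂ K] [CompleteSpace K] (G : J → Type)
    [∀ j, Group (G j)] [∀ j, TopologicalSpace (G j)] [∀ j, IsTopologicalGroup (G j)]
    [∀ j, LocallyCompactSpace (G j)] [∀ j, SecondCountableTopology (G j)] [∀ j, T2Space (G j)]
    [∀ j, MeasurableSpace (G j)] [∀ j, BorelSpace (G j)]
    (ρ : X →* (K →L[ℂ] K)) (V : Γ →* (K →L[ℂ] K)) (ω : K) (ι : ∀ j, X →* G j)
    (μ : ∀ j, Measure (G j)) [∀ j, (μ j).IsHaarMeasure] [∀ j, (μ j).IsMulRightInvariant]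
    (A : ∀ j, Set (G j → (K →L[ℂ] K))),
    Frm ρ V ω → (∀ j, DenseRange (ι j)) →
    (∀ j, ∀ a ∈ A j, Fd (ι j) ρ a) →
    (∀ j, ∀ a ∈ A j, (fun x => adjoint (a x)) ∈ A j) →
    (∀ j, ∀ a ∈ A j, ∀ y, (fun x => a (x * y)) ∈ A j) →
    (∀ j, ∀ a ∈ A j, ∀ g, (fun x => V g * a x * V g⁻¹) ∈ A j) →
    (∀ j, ∀ a ∈ A j, ∀ b ∈ A j, ∀ ζ η : K, MemLp (fun x => a x ζ) 2 (μ j) ∧
      ∫ x, ⟪a x ζ, b x η⟫_ℂ ∂(μ j) = ip ω (μ j) a b * ⟪ζ, η⟫_ℂ) →
    (∀ j, ∃ a ∈ A j, a ≠ 0) →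
    (∀ j k, ∀ a ∈ A j, ∀ b ∈ A k, ∀ x y, a x * b y = b y * a x) →
    (∀ j (ξ : Lp K 2 (μ j)), (∀ a ∈ A j, ∀ ζ, ∫ x, ⟪a x ζ, ξ x⟫_ℂ ∂(μ j) = 0) → ξ = 0) →
    (∀ C : ∀ j, Set (G j), (∀ j, IsCompact (C j)) → {x | ∀ j, ι j x ∈ C j}.Finite) →
    (∀ x, (∀ j, ι j x = 1) → x = 1) →
    Mono V ρ

/-- The abstract blocks of project Q. -/
structure Blk : Prop where
  mat : MatStmt
  two : TwoStmt
  alg : AlgStmt
  gal : GalStmt
  c1 : C1Stmt
  c2 : C2Stmt
  c3 : C3Stmt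
  fin : EndStmt

end Vale.Agent.P092.Q
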