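import Vale.Agent.P092.Q.Defs
import Vale.Agent.P092.H715.Two

/-!
P092, project Q (helper157): the blocks [Q-2S] and [Q-ALG] in the letters of `Q/Defs.lean`, from
helper715's files.
-/

set_option linter.all false

open MeasureTheory Filter Topology ContinuousLinearMap
open scoped InnerProductSpace ENNReal

namespace Vale.Agent.P092.Q

/-- [Q-2S] -/
theorem twoStmt : TwoStmt := by
  intro Γ X Y K G H _ _ _ _ _ _ _ _ _ _ _ _ _ _ _ _ _ _ _ _ _ _ _ _ _ V W f ρ f' ρ' ω p κ μ _ _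
    ν _ _ D hp hκ h1 h2 hT hS
  exact H715.Q.tws_ne D hκ hp h1 hT hS

/-- [Q-ALG] -/
theorem algStmt : AlgStmt := by
  intro Γ X Y K G H _ _ _ _ _ _ _ _ _ _ _ _ _ _ _ _ _ _ _ _ _ _ _ _ _ V W f ρ f' ρ' ω p κ μ _ _
    ν _ _ D hp hκ a ha
  refine ⟨ha.adj D hκ, fun y => ha.rt D hκ hp y, fun g => ?_⟩
  have h1 := ha.al D hκ (κ g)
  have h2 : H650.al κ V (κ g) a = fun x => V g * a x * V g⁻¹ := by
    funext x
    exact H650.al_coe D.fr hκ ha.smo.acont g x
  rw [h2] at h1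
  exact h1

end Vale.Agent.P092.Q
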