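import Vale.Agent.P092.Q.Defs
import Vale.Agent.P092.H494.QEnd

/-!
P092, project Q (helper157): the block [Q-END] in the letters of `Q/Defs.lean`, from helper494's
`q_end`.
-/

set_option linter.all false

open MeasureTheory Filter Topology ContinuousLinearMap
open scoped InnerProductSpace ENNReal

namespace Vale.Agent.P092.Q

open Vale.Agent.P092.H160 (RegRep Cmm)
open Vale.Agent.P092.H156
open Vale.Agent.P092.H156.Sm (Frm Fd Smo ip)

theorem reg_of {X K : Type} [Group X] [NormedAddCommGroup K] [InnerProductSpace ℂ K]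
    [CompleteSpace K] {ρ : X →* (K →L[ℂ] K)} {ω : K} (h : RegRep ρ ω) :
    H828.Reg (fun x => ρ x) ω where
  one := map_one ρ
  mul := map_mul ρ
  adj := h.adj
  norm_one := h.norm_one
  orth := h.inner_zero
  total := h.total

theorem urep_of {X K : Type} [Group X] [NormedAddCommGroup K] [InnerProductSpace ℂ K]
    [CompleteSpace K] {V : X →* (K →L[ℂ] K)} (h : ∀ g, adjoint (V g) = V g⁻¹) :
    H828.URep (fun x => V x) where
  one := map_one V
  mul := map_mul V
  adj := h

/-- [Q-END] -/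
theorem endStmt : EndStmt := by
  intro Γ X K J _ _ _ _ _ _ _ _ G _ _ _ _ _ _ _ _ ρ V ω ι μ _ _ A hF hd fd adj rt cj t4 ne com full
    prop inj
  haveI : ∀ j, SigmaCompactSpace (G j) := fun j => inferInstance
  have hP : ∀ j, H494.Pla (fun x => ρ x) (fun g => V g) (ι j) (μ j) (A j) := fun j =>
    { equiv := fun a ha => (fd j a ha).equiv
      bdd := fun a ha => (fd j a ha).bdd
      rcont := fun a ha => (fd j a ha).rcont
      adj := adj j
      rt := rt j
      adV := cj j
      t4 := fun a ha => ⟨(ip ω (μ j) a a).re, fun ζ => ⟨(t4 j a ha a ha ζ ζ).1, by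
        have h1 := (t4 j a ha a ha ζ ζ).2
        have h2 : ∫ x, ⟪a x ζ, a x ζ⟫_ℂ ∂(μ j) = ((∫ x, ‖a x ζ‖ ^ 2 ∂(μ j) : ℝ) : ℂ) := by
          rw [← integral_complex_ofReal]
          refine integral_congr_ae (Eventually.of_forall fun x => ?_)
          simp only [inner_self_eq_norm_sq_to_K]
          norm_cast
        rw [h2, inner_self_eq_norm_sq_to_K] at h1
        have h3 := congrArg Complex.re h1
        rw [Complex.ofReal_re, Complex.mul_re] at h3
        have e1 : (((‖ζ‖ : ℂ)) ^ 2).re = ‖ζ‖ ^ 2 := by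
          rw [← Complex.ofReal_pow, Complex.ofReal_re]
        have e2 : (((‖ζ‖ : ℂ)) ^ 2).im = 0 := by
          rw [← Complex.ofReal_pow, Complex.ofReal_im]
        simpa [e1, e2] using h3⟩⟩
      ne := by
        obtain ⟨a, ha, h0⟩ := ne j
        obtain ⟨x, hx⟩ := Function.ne_iff.1 h0
        exact ⟨a, ha, x, hx⟩ }
  obtain ⟨w, δ, χ, h1, -, h3, h4⟩ := H494.q_end (reg_of hF.reg) (urep_of hF.adj)
    (fun g x => hF.comm g x) ι μ A hP com (fun j => H494.free_of_full (hP j) (full j)) inj prop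
  exact ⟨w, h1.norm_one, fun g => ⟨(δ g)⁻¹, χ g, h3 g, h4 g⟩⟩

end Vale.Agent.P092.Q
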