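import Vale.Agent.P092.Q.Defs
import Vale.Agent.P092.H715.Two
import Vale.Agent.P092.H565.Van

/-!
P092, project Q (helper157): the block [Q-MATCH].  A target-finite field at the source place `κ₁` and
a source-finite field at another source place `κ₂` (same leg, same target place) do not both exist.
-/

set_option linter.all false

open MeasureTheory Filter Topology ContinuousLinearMap
open scoped InnerProductSpace ENNReal

namespace Vale.Agent.P092.Q

open Vale.Agent.P092.H160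
open Vale.Agent.P092.H156.Sm
open Vale.Agent.P092.H650
open Vale.Agent.P092.H715.Q

section one

variable {X Γ G H K : Type} [Group X] [Group Γ] [Group G] [Group H] [Countable X]
  [TopologicalSpace G] [TopologicalSpace H] [IsTopologicalGroup G] [IsTopologicalGroup H]
  [MeasurableSpace G] [BorelSpace G] [SecondCountableTopology G] [LocallyCompactSpace G] [T2Space G]
  [NormedAddCommGroup K] [InnerProductSpace ℂ K] [CompleteSpace K]
  {ρ : X →* (K →L[ℂ] K)} {V : Γ →* (K →L[ℂ] K)} {ω : K} {ι : X →* G} {κ : Γ →* H}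
  {μ : Measure G} {a b : G → K →L[ℂ] K}

/-- The vector fields of a smooth field vanish at infinity. -/
theorem tendsto_zero_field [μ.IsHaarMeasure] (h1 : F1 ι κ ρ V ω μ) (ha : Smo ι κ ρ V ω μ a)
    (ζ : K) : Tendsto (fun x => a x ζ) (cocompact G) (𝓝 0) := by
  have h2 : Integrable (fun x => ‖a x ζ‖ ^ 2) μ :=
    (h1 a a ha ha ζ ζ).1.integrable_norm_pow two_ne_zero
  obtain ⟨C, hC0, hC⟩ := ha.toFd.exists_bdd
  have h3 : Tendsto (fun x => ‖a x ζ‖ ^ 2) (cocompact G) (𝓝 0) := by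
    refine H565.tendsto_zero_of_integrable h2 (fun ε hε => ?_) fun x => by positivity
    obtain ⟨δ, hδ, hδ1⟩ : ∃ δ : ℝ, 0 < δ ∧ δ * ‖ζ‖ * (2 * C * ‖ζ‖) ≤ ε := by
      refine ⟨ε / (2 * C * ‖ζ‖ ^ 2 + 1), by positivity, ?_⟩
      have e1 : ε / (2 * C * ‖ζ‖ ^ 2 + 1) * ‖ζ‖ * (2 * C * ‖ζ‖) =
          ε * ((2 * C * ‖ζ‖ ^ 2) / (2 * C * ‖ζ‖ ^ 2 + 1)) := by ring
      rw [e1]
      refine mul_le_of_le_one_right hε.le ?_
      rw [div_le_one (by positivity)]
      linarith
    obtain ⟨U, hU, hU1⟩ := ha.toFd.rcont δ hδ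
    refine ⟨U, hU, fun u hu x => ?_⟩
    have e2 : |‖a (x * u) ζ‖ - ‖a x ζ‖| ≤ δ * ‖ζ‖ := by
      refine (abs_norm_sub_norm_le _ _).trans ?_
      rw [← ContinuousLinearMap.sub_apply]
      exact (ContinuousLinearMap.le_opNorm _ _).trans (by gcongr; exact hU1 u hu x)
    have e3 : ∀ y, ‖a y ζ‖ ≤ C * ‖ζ‖ := fun y =>
      (ContinuousLinearMap.le_opNorm _ _).trans (by gcongr; exact hC y)
    have e4 : ‖a (x * u) ζ‖ ^ 2 - ‖a x ζ‖ ^ 2 =
        (‖a (x * u) ζ‖ - ‖a x ζ‖) * (‖a (x * u) ζ‖ + ‖a x ζ‖) := by ring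
    rw [e4, abs_mul]
    refine le_trans ?_ hδ1
    refine mul_le_mul e2 ?_ (abs_nonneg _) (by positivity)
    rw [abs_of_nonneg (by positivity)]
    have := e3 (x * u)
    have := e3 x
    linarith
  rw [tendsto_zero_iff_norm_tendsto_zero]
  have h4 := (Real.continuous_sqrt.tendsto 0).comp h3
  rw [Real.sqrt_zero] at h4
  refine h4.congr fun x => ?_
  simp [Real.sqrt_sq (norm_nonneg _)]

/-- If `b x * a y = 0` for all `x, y` then `b = 0`. -/
theorem eq_zero_of_mul [μ.IsMulLeftInvariant] [μ.IsOpenPosMeasure] (hF : Frm ρ V ω)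
    (h1 : F1 ι κ ρ V ω μ) (ha : Smo ι κ ρ V ω μ a) (ha0 : a ≠ 0)
    (h0 : ∀ x y, b x * a y = 0) : b = 0 := by
  have ha' := ha.adj hF
  have hn : nsq ω μ (fun x => adjoint (a x)) ≠ 0 := by
    rw [nsq_adj hF.reg ha.toFd.continuous ha.toFd.equiv]
    exact nsq_ne_zero hF.reg ha.toFd ha0
  funext x
  have h2 : adjoint (b x) = 0 := by
    ext1 η
    refine h1.eq_zero ha' hn fun y => ?_
    have h3 : adjoint (a y) * adjoint (b x) = 0 := by
      rw [← H715.Q.adj_mul, h0 x y, map_zero]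
    exact congrArg (fun T : K →L[ℂ] K => T η) h3
  have h3 := congrArg (fun T : K →L[ℂ] K => adjoint T) h2
  simp only [map_zero] at h3
  rw [adjoint_adjoint] at h3
  exact h3

theorem nsq_add_le (a b : G → K →L[ℂ] K) (hb : Continuous b) :
    nsq ω μ (fun x => a x + b x) ≤ 2 * nsq ω μ a + 2 * nsq ω μ b := by
  unfold nsq
  have hm : Measurable fun x => (2 : ℝ≥0∞) * ‖b x ω‖ₑ ^ 2 :=
    (((hb.clm_apply continuous_const).enorm.measurable).pow_const 2).const_mul _
  rw [← lintegral_const_mul' _ _ (by simp), ← lintegral_const_mul' _ _ (by simp),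
    ← lintegral_add_right _ hm]
  refine lintegral_mono fun x => ?_
  rw [ContinuousLinearMap.add_apply]
  have h1 : ‖a x ω + b x ω‖ ^ 2 ≤ 2 * ‖a x ω‖ ^ 2 + 2 * ‖b x ω‖ ^ 2 := by
    have h2 := norm_add_le (a x ω) (b x ω)
    nlinarith [sq_nonneg (‖a x ω‖ - ‖b x ω‖), norm_nonneg (a x ω), norm_nonneg (b x ω),
      norm_nonneg (a x ω + b x ω)]
  have e : ∀ v : K, ‖v‖ₑ ^ 2 = ENNReal.ofReal (‖v‖ ^ 2) := fun v => by
    rw [ENNReal.ofReal_pow (norm_nonneg _), ofReal_norm_eq_enorm]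
  rw [e, e, e]
  have e2 : (2 : ℝ≥0∞) = ENNReal.ofReal 2 := by simp
  rw [e2, ← ENNReal.ofReal_mul (by norm_num), ← ENNReal.ofReal_mul (by norm_num),
    ← ENNReal.ofReal_add (by positivity) (by positivity)]
  exact ENNReal.ofReal_le_ofReal h1

end one

section mat

variable {Γ X Y G H₁ H₂ K : Type} [Group Γ] [Group X] [Group Y] [Group G] [Group H₁] [Group H₂]
  [Countable Γ] [Countable X] [Countable Y]
  [TopologicalSpace G] [TopologicalSpace H₁] [TopologicalSpace H₂] [IsTopologicalGroup G]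
  [IsTopologicalGroup H₁] [IsTopologicalGroup H₂]
  [MeasurableSpace G] [BorelSpace G] [SecondCountableTopology G] [LocallyCompactSpace G] [T2Space G]
  [MeasurableSpace H₂] [BorelSpace H₂] [SecondCountableTopology H₂] [LocallyCompactSpace H₂]
  [T2Space H₂]
  [NormedAddCommGroup K] [InnerProductSpace ℂ K] [CompleteSpace K]
  {V W : Γ →* (K →L[ℂ] K)} {f : X →* Γ} {ρ : X →* (K →L[ℂ] K)} {f' : Y →* Γ}
  {ρ' : Y →* (K →L[ℂ] K)} {ω : K} {p : Γ →* G} {κ₁ : Γ →* H₁} {κ₂ : Γ →* H₂}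
  {a b : G → K →L[ℂ] K} {μ : Measure G} {ν : Measure H₂}

/-- The conjugates of a source-finite field tend to zero strongly. -/
theorem conj_tendsto [ν.IsHaarMeasure] (D : Dbl V W f ρ f' ρ' ω) (hκ₂ : DenseRange κ₂)
    (hp : DenseRange p) (h2 : F1 (κ₂.comp f') p ρ' W ω ν)
    {c : H₂ → K →L[ℂ] K} (hc : Smo (κ₂.comp f') p ρ' W ω ν c) {w : ℕ → Γ}
    (hw : Tendsto (fun n => κ₂ (w n)) atTop (cocompact H₂)) (x : G) (ζ : K) :
    Tendsto (fun n => (V (w n) * fl p W c x * V (w n)⁻¹) ζ) atTop (𝓝 0) := by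
  have hfa := fd_fl D.symm hp hc.toFd hc.acont
  have hca := acont_fl D.symm hp hc.toFd hc.acont
  have hfl := fl_fl D.symm hp hκ₂ hc.toFd hc.acont
  have h3 : ∀ h, al κ₂ V h (fl p W c) x = al p W x c h := fun h => by
    rw [← al_fl D hκ₂ hp hfa hca x h, hfl]
  have h4 : ∀ n, V (w n) * fl p W c x * V (w n)⁻¹ = al p W x c (κ₂ (w n)) := fun n => by
    rw [← h3, al_coe D.fr hκ₂ hca]
    rfl
  simp only [h4]
  exact (tendsto_zero_field h2 (smo_al D.fr' hp hc x) ζ).comp hw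

/-- [Q-MATCH], the product of the two fields vanishes. -/
theorem mul_eq_zero_of_esc [μ.IsHaarMeasure] [μ.IsMulRightInvariant] [ν.IsHaarMeasure]
    (D : Dbl V W f ρ f' ρ' ω) (hκ₂ : DenseRange κ₂) (hp : DenseRange p)
    (h2 : F1 (κ₂.comp f') p ρ' W ω ν) {c : H₂ → K →L[ℂ] K}
    (hc : Smo (κ₂.comp f') p ρ' W ω ν c) (ha : Smo (p.comp f) κ₁ ρ V ω μ a) {w : ℕ → Γ}
    (hw₁ : Tendsto (fun n => κ₁ (w n)) atTop (𝓝 1))
    (hw₂ : Tendsto (fun n => κ₂ (w n)) atTop (cocompact H₂)) (x : G) :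
    fl p W c x * a x = 0 := by
  set b := fl p W c with hb
  have hfb : Fd (p.comp f) ρ b := fd_fl D.symm hp hc.toFd hc.acont
  obtain ⟨C, hC0, hC⟩ := hfb.exists_bdd
  have hprod : Fd (p.comp f) ρ (fun x => b x * a x) := hfb.mul ha.toFd
  -- the first term
  have t1 : Tendsto (fun n => nsq ω μ (fun x => cj V (w n) b x * a x)) atTop (𝓝 0) := by
    have e0 : (0 : ℝ≥0∞) = ∫⁻ x, (0 : ℝ≥0∞) ∂μ := by simp
    rw [e0]
    unfold nsq
    refine tendsto_lintegral_of_dominated_convergence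
      (fun x => ENNReal.ofReal C ^ 2 * ‖a x ω‖ₑ ^ 2) (fun n => ?_) (fun n => ?_) ?_ ?_
    · exact (((((hfb.conj D.fr (w n)).continuous.mul ha.toFd.continuous).clm_apply
        continuous_const).enorm.measurable).pow_const 2)
    · refine Eventually.of_forall fun x => ?_
      beta_reduce
      rw [← mul_pow]
      gcongr
      have e1 : ‖(cj V (w n) b x * a x) ω‖ ≤ C * ‖a x ω‖ := by
        rw [mul_ap]
        exact (ContinuousLinearMap.le_opNorm _ _).trans
          (by gcongr; exact (norm_cj D.fr (w n) b x).trans (hC x))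
      rw [← ofReal_norm_eq_enorm, ← ofReal_norm_eq_enorm, ← ENNReal.ofReal_mul hC0.le]
      exact ENNReal.ofReal_le_ofReal e1
    · rw [lintegral_const_mul' _ _ (by simp)]
      exact ENNReal.mul_ne_top (by simp) (nsq_lt_top ha.l2).ne
    · refine Eventually.of_forall fun x => ?_
      have e1 : Tendsto (fun n => (cj V (w n) b x * a x) ω) atTop (𝓝 0) := by
        simp only [mul_ap]
        exact conj_tendsto D hκ₂ hp h2 hc hw₂ x (a x ω)
      have e2 := ((ENNReal.continuous_pow 2).tendsto _).comp e1.enorm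
      rw [enorm_zero, zero_pow two_ne_zero] at e2
      exact e2
  -- the second term
  have t2 : Tendsto (fun n => nsq ω μ (fun x => cj V (w n) b x * (cj V (w n) a x - a x))) atTop
      (𝓝 0) := by
    have s1 : Tendsto (fun n => nsq ω μ (fun x => cj V (w n) a x - a x)) atTop (𝓝 0) := by
      rw [ENNReal.tendsto_nhds_zero]
      intro ε hε
      by_cases hε' : ε = ⊤
      · exact Eventually.of_forall fun n => hε' ▸ le_top
      obtain ⟨U, hU, hU1⟩ := conj_cont (μ := μ) D.fr ha ε.toReal (ENNReal.toReal_pos hε.ne' hε')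
      filter_upwards [hw₁ hU] with n hn
      have h5 := hU1 (w n) hn
      have h6 : nsq ω μ (fun x => cj V (w n) a x - a x) ≠ ⊤ :=
        (nsq_lt_top ((L2.conj D.fr ha.toFd ha.l2 (w n)).sub ha.l2)).ne
      exact (ENNReal.toReal_le_toReal h6 hε').1 h5
    have s2 : ∀ n, nsq ω μ (fun x => cj V (w n) b x * (cj V (w n) a x - a x)) ≤
        ENNReal.ofReal C ^ 2 * nsq ω μ (fun x => cj V (w n) a x - a x) := fun n =>
      nsq_mul_left fun x => (norm_cj D.fr (w n) b x).trans (hC x)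
    have s3 : Tendsto (fun n => ENNReal.ofReal C ^ 2 * nsq ω μ (fun x => cj V (w n) a x - a x))
        atTop (𝓝 0) := by
      have := ENNReal.Tendsto.const_mul (a := ENNReal.ofReal C ^ 2) s1 (Or.inr (by simp))
      simpa using this
    exact tendsto_of_tendsto_of_tendsto_of_le_of_le tendsto_const_nhds s3
      (fun n => zero_le) s2
  have t3 : ∀ n, nsq ω μ (fun x => b x * a x) ≤
      2 * nsq ω μ (fun x => cj V (w n) b x * a x) +
      2 * nsq ω μ (fun x => cj V (w n) b x * (cj V (w n) a x - a x)) := by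
    intro n
    have e1 : nsq ω μ (fun x => b x * a x) = nsq ω μ (fun x => cj V (w n) (fun x => b x * a x) x) :=
      (nsq_conj D.fr hprod (w n)).symm
    have e2 : (fun x => cj V (w n) (fun x => b x * a x) x) =
        fun x => cj V (w n) b x * a x + cj V (w n) b x * (cj V (w n) a x - a x) := by
      funext x
      rw [cj_mul D.fr, mul_sub]
      abel
    rw [e1, e2]
    exact nsq_add_le _ _ ((hfb.conj D.fr (w n)).continuous.mul
      ((ha.toFd.conj D.fr (w n)).continuous.sub ha.toFd.continuous))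
  have t4 : Tendsto (fun n => 2 * nsq ω μ (fun x => cj V (w n) b x * a x) +
      2 * nsq ω μ (fun x => cj V (w n) b x * (cj V (w n) a x - a x))) atTop (𝓝 0) := by
    have u1 := ENNReal.Tendsto.const_mul (a := 2) t1 (Or.inr (by simp))
    have u2 := ENNReal.Tendsto.const_mul (a := 2) t2 (Or.inr (by simp))
    have := u1.add u2
    simpa using this
  have t5 : nsq ω μ (fun x => b x * a x) = 0 :=
    le_antisymm (ge_of_tendsto' t4 t3) zero_le
  exact congrFun (field_eq_zero D.fr.reg hprod (zero_of_nsq hprod t5)) x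

end mat

/-- [Q-MATCH] -/
theorem matStmt : MatStmt := by
  intro Γ X Y K G H₁ H₂ _ _ _ _ _ _ _ _ _ _ _ _ _ _ _ _ _ _ _ _ _ _ _ _ _ _ _ _ _ _ _ V W f ρ f'
    ρ' ω p κ₁ κ₂ μ _ _ ν _ _ D hp hκ₁ hκ₂ hE h1 h2 ha hc
  obtain ⟨w, hw₁, hw₂⟩ := hE
  obtain ⟨a, ha, ha0⟩ := ha
  obtain ⟨c, hc, hc0⟩ := hc
  have h3 : ∀ x y, fl p W c x * a y = 0 := by
    intro x y
    have h4 := mul_eq_zero_of_esc D hκ₂ hp h2 hc (ha.rt (x⁻¹ * y)) hw₁ hw₂ x
    rwa [mul_inv_cancel_left] at h4
  have h4 : fl p W c = 0 := eq_zero_of_mul D.fr h1 ha ha0 h3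
  refine hc0 ?_
  have h5 := fl_fl D.symm hp hκ₂ hc.toFd hc.acont
  rw [← h5, h4]
  exact fl_zero D hκ₂

end Vale.Agent.P092.Q
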