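import Vale.Agent.P092.Q.Final
import Vale.Agent.P092.H971.QGrp
import Vale.Agent.P092.H866.ErgL
import Vale.Agent.P092.H448.ErgLit2
import Vale.Agent.P092.H628.TorMain

/-!
P092, project Q (helper157): ergodicity at all places (helper866: connected places, helper448,
helper945, helper628, helper632: totally disconnected places).
-/

set_option linter.all false

open MeasureTheory Filter Topology Matrix
open Vale.Agent.P092.H160 Vale.Agent.P092.H160.St Vale.Agent.P092.H515.St
open Vale.Agent.P092.PA (FacS)

namespace Vale.Agent.P092.Q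

open Vale.Agent.P092.SR Vale.Agent.P092.H971

/-- [Q-ERG] -/
theorem ergStmt : ErgStmt := by
  intro I _ n k _ _ hk hn Γ hlat hd hicc Λ _ _ α hΛ hα i
  have hfac : ∀ i, FacS (PSLk (n i) (k i)) := fun i =>
    PA.facS_psl (locK_of_st (hk i)) (hn i)
  have a1 := fun i => lc_sl (n i) (k i)
  have a2 := fun i => sc_sl (n i) (k i)
  have b1 := fun i => (hfac i).lc
  have b2 := fun i => (hfac i).sc
  have b3 := fun i => (hfac i).t2
  have hcA : ∀ i, IsCompact (Subgroup.center (SpecialLinearGroup (Fin (n i)) (k i)) :
      Set (SpecialLinearGroup (Fin (n i)) (k i))) := fun i => H793.finite_center.isCompact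
  rcases H866.conn_or_ultra (locK_of_st (hk i)) with hc | hu
  · haveI : Nontrivial (Fin (n i)) := Fin.nontrivial_iff_two_le.2 (hn i)
    haveI : PreconnectedSpace (PSLk (n i) (k i)) := H866.preconnected_psl
    exact H866.erg_icc (hfac i) hicc hΛ hα
      ((QuotientGroup.mk'_surjective _).denseRange.comp (hd i) continuous_quotient_mk')
  · haveI := hu
    exact H448.erg_psl' (Or.inr H628.torStmt) (hn i) hα hicc (hd i) fun h hh =>
      ricc_quot (pj Γ) (pj_inj Γ) (by rw [pi_pj]; exact hlat) hicc hcA
        (fun j => (hfac j).recu) i (hd i) (hfac i).cent hh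

end Vale.Agent.P092.Q
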