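import Vale.Agent.P092.Q.Alg
import Vale.Agent.P092.Q.End
import Vale.Agent.P092.Q.Mat
import Vale.Agent.P092.Q.Erg
import Vale.Agent.P092.Q.Ex
import Vale.Agent.P092.H448.Gal2
import Vale.Agent.P092.H720.C1
import Vale.Agent.P092.H978.C2c
import Vale.Agent.P092.H565.C3
import Vale.Agent.P092.H465.NeStmt

/-!
P092, project Q (helper157): assembly.
-/

set_option linter.all false

open Vale.Agent.P092.H160.St Vale.Agent.P092.SR.St Vale.Agent.P092.Q.St

namespace Vale.Agent.P092.Q

/-- All abstract blocks. -/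
theorem blk : Blk where
  mat := matStmt
  two := twoStmt
  alg := algStmt
  gal := Vale.Agent.P092.H448.Gal.galStmt
  c1 := H720.c1Stmt
  c2 := H978.c2Stmt
  c3 := H565.c3Stmt
  fin := endStmt

/-- **Lattices in products of groups `SL_n(k)` over local fields are `W*`-superrigid**, `t = 1`. -/
theorem super (Γ : Type) [Group Γ] (h : ProductLattice Γ) : Super Γ :=
  blk.final H971.grpStmt ergStmt H465.neStmt Γ h

/-- The named groups. -/
theorem super_SL (n N : ℕ) (hn : Odd n) (h3 : 3 ≤ n) (hN : 2 ≤ N) :
    Super (Matrix.SpecialLinearGroup (Fin n) (Localization.Away (N : ℤ))) :=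
  super _ (productLattice_SL n N hn h3 hN)

end Vale.Agent.P092.Q
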