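import Vale.Agent.P092.Q.Defs

/-!
P092, project Q (helper157): the abstract assembly.  The blocks of `Q/Defs.lean` imply that the source
representation is monomial.
-/

set_option linter.all false

open MeasureTheory Filter Topology ContinuousLinearMap
open scoped InnerProductSpace ENNReal

namespace Vale.Agent.P092.Q

open Vale.Agent.P092.H160 (RegRep Cmm)
open Vale.Agent.P092.H156
open Vale.Agent.P092.H156.Sm (Frm Fd Smo ip)
open Vale.Agent.P092.H715.Q (Dbl fl F1 TwS)
open Vale.Agent.P092.PA (FacS Lat)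

variable {Γ X Y K I : Type} [Group Γ] [Countable Γ] [Group X] [Countable X] [Group Y] [Countable Y]
  [NormedAddCommGroup K] [InnerProductSpace ℂ K] [CompleteSpace K] [Fintype I] {G : I → Type}
  [∀ i, Group (G i)] [∀ i, TopologicalSpace (G i)] [∀ i, IsTopologicalGroup (G i)]
  [∀ i, LocallyCompactSpace (G i)] [∀ i, SecondCountableTopology (G i)] [∀ i, T2Space (G i)]
  [∀ i, MeasurableSpace (G i)] [∀ i, BorelSpace (G i)]

/-- The analysis of one leg: the target places are matched with the source places (`σ j` is the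
source place of the target place `j`), and the two-sided algebras are not zero. -/
theorem Blk.leg (B : Blk) {V W : Γ →* (K →L[ℂ] K)} {f : X →* Γ} {ρ : X →* (K →L[ℂ] K)}
    {f' : Y →* Γ} {ρ' : Y →* (K →L[ℂ] K)} {ω : K} (p : ∀ i, Γ →* G i)
    (μ : ∀ i, Measure (G i)) [∀ i, (μ i).IsHaarMeasure] [∀ i, (μ i).IsMulRightInvariant]
    (h : Dbl V W f ρ f' ρ' ω) (hd : ∀ i, DenseRange (p i)) (he : ∀ i k, i ≠ k → Esc (p i) (p k))
    (t : ∀ i j, F1 ((p j).comp f) (p i) ρ V ω (μ j))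
    (t' : ∀ i j, F1 ((p i).comp f') (p j) ρ' W ω (μ i))
    (n : ∀ i, ∃ j a, Smo ((p j).comp f) (p i) ρ V ω (μ j) a ∧ a ≠ 0)
    (n' : ∀ j, ∃ i b, Smo ((p i).comp f') (p j) ρ' W ω (μ i) b ∧ b ≠ 0) :
    ∃ σ : I → I, Function.Injective σ ∧
      ∀ j, ∃ a, TwS V f ρ ω (p j) (p (σ j)) (μ j) (μ (σ j)) a ∧ a ≠ 0 := by
  classical
  have key : ∀ i i' j, (∃ a, Smo ((p j).comp f) (p i) ρ V ω (μ j) a ∧ a ≠ 0) →
      (∃ b, Smo ((p i').comp f') (p j) ρ' W ω (μ i') b ∧ b ≠ 0) → i = i' := by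
    intro i i' j h1 h2
    by_contra hne
    exact B.mat Γ X Y K (G j) (G i) (G i') V W f ρ f' ρ' ω (p j) (p i) (p i') (μ j) (μ i') h (hd j)
      (hd i) (hd i') (he i i' hne) (t i j) (t' i' j) h1 h2
  choose σ hσ using n
  choose τ hτ using n'
  have h1 : ∀ i, τ (σ i) = i := fun i => (key i (τ (σ i)) (σ i) (hσ i) (hτ (σ i))).symm
  have hinj : Function.Injective σ := fun i i' hi => by
    have h2 := h1 i
    rw [hi, h1 i'] at h2
    exact h2.symm
  have hsur : Function.Surjective σ := Finite.injective_iff_surjective.1 hinj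
  have h2 : ∀ j, σ (τ j) = j := fun j => by
    obtain ⟨i, rfl⟩ := hsur j
    rw [h1 i]
  refine ⟨τ, fun j j' hj => by rw [← h2 j, hj, h2 j'], fun j => ?_⟩
  have h3 : ∃ a, Smo ((p j).comp f) (p (τ j)) ρ V ω (μ j) a ∧ a ≠ 0 := by
    have h4 := hσ (τ j)
    rw [h2 j] at h4
    exact h4
  exact B.two Γ X Y K (G j) (G (τ j)) V W f ρ f' ρ' ω (p j) (p (τ j)) (μ j) (μ (τ j)) h (hd _)
    (hd _) (t _ _) (t' _ _) h3 (hτ j)

/-- **The abstract theorem of project Q.**  `Γ` is a lattice in the product of the factors `G i`, all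
projections are dense; the legs are indexed by `Bool`. -/
theorem Blk.main (B : Blk) {V : Γ →* (K →L[ℂ] K)} {R : Bool → Γ →* (K →L[ℂ] K)}
    {f : Bool → X →* Γ} {ρ : X →* (K →L[ℂ] K)} {f' : Bool → Y →* Γ}
    {ρ' : Bool → Y →* (K →L[ℂ] K)} {ω : K} (p : ∀ i, Γ →* G i)
    (μ : ∀ i, Measure (G i)) [∀ i, (μ i).IsHaarMeasure] [∀ i, (μ i).IsMulRightInvariant]
    (m : Measure (∀ i, G i)) (lat : Lat (MonoidHom.pi p) m)
    (fac : ∀ i, FacS (G i)) (hd : ∀ i, DenseRange (p i)) (he : ∀ i k, i ≠ k → Esc (p i) (p k))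
    (hinj : ∀ g, (∀ i, p i g = 1) → g = 1)
    (h : ∀ l, Dbl V (R l) (f l) ρ (f' l) (ρ' l) ω)
    (hR : ∀ g k, R false g * R true k = R true k * R false g)
    (hρ : ∀ x, ρ x = R false (f false x) * R true (f true x))
    (hs : ∀ l, Function.Surjective (f l)) (hf : ∀ x, (∀ l, f l x = 1) → x = 1)
    (t : ∀ l i j, F1 ((p j).comp (f l)) (p i) ρ V ω (μ j))
    (t' : ∀ l i j, F1 ((p i).comp (f' l)) (p j) (ρ' l) (R l) ω (μ i))
    (n : ∀ l i, ∃ j a, Smo ((p j).comp (f l)) (p i) ρ V ω (μ j) a ∧ a ≠ 0)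
    (n' : ∀ l j, ∃ i b, Smo ((p i).comp (f' l)) (p j) (ρ' l) (R l) ω (μ i) b ∧ b ≠ 0) :
    Mono V ρ := by
  classical
  have hl := fun l => B.leg p μ (h l) hd he (t l) (t' l) (n l) (n' l)
  choose σ hσ s using hl
  have hdd : ∀ l j, DenseRange ((p j).comp (f l)) := fun l j => by
    have e : Set.range ((p j).comp (f l)) = Set.range (p j) := by
      rw [MonoidHom.coe_comp]
      exact (hs l).range_comp _
    rw [DenseRange, e]
    exact hd j
  -- different source places
  have c3 : ∀ (l l' : Bool) (j k : I), σ l j ≠ σ l' k →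
      ∀ a b, TwS V (f l) ρ ω (p j) (p (σ l j)) (μ j) (μ (σ l j)) a →
        TwS V (f l') ρ ω (p k) (p (σ l' k)) (μ k) (μ (σ l' k)) b → ∀ x y, a x * b y = b y * a x := by
    intro l l' j k hne a b ha hb
    refine B.c3 Γ X Y K (G j) (G k) (G (σ l j)) (G (σ l' k)) (∀ i, G i) V (R l) (f l) ρ (f' l)
      (ρ' l) ω (p j) (p (σ l j)) (p (σ l' k)) ((p k).comp (f l')) (MonoidHom.pi p)
      (Pi.evalMonoidHom G (σ l j)) (Pi.evalMonoidHom G (σ l' k)) (μ j) (μ k) (μ (σ l j)) m (h l)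
      (hd _) (hd _) (hd _) (hdd _ _) (fac _) (fac _) (continuous_apply _) (continuous_apply _)
      (fun e => ⟨Function.update 1 (σ l j) e, ?_, ?_⟩) (fun g => rfl) (fun g => rfl) lat
      (t l _ _) (t' l _ _) (t l' _ _) (s l j) a b ha hb.smo
    · simp
    · simp [Function.update_of_ne hne.symm]
  have c : ∀ (l l' : Bool) (j k : I),
      ∀ a b, TwS V (f l) ρ ω (p j) (p (σ l j)) (μ j) (μ (σ l j)) a →
        TwS V (f l') ρ ω (p k) (p (σ l' k)) (μ k) (μ (σ l' k)) b → ∀ x y, a x * b y = b y * a x := by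
    intro l l' j k a b ha hb
    by_cases hne : σ l j = σ l' k
    · by_cases hl : l = l'
      · subst hl
        have hjk : j = k := hσ l hne
        subst hjk
        exact B.c1 Γ X Y K (G j) (G (σ l j)) V (R l) (f l) ρ (f' l) (ρ' l) ω (p j) (p (σ l j)) (μ j)
          (μ (σ l j)) (h l) (hd _) (hd _) (fac _) (fac _) (t l _ _) (t' l _ _) (s l j) a b ha hb
      · have hs' := s l' k
        have t1 := t l' (σ l' k) k
        have t2 := t' l' (σ l' k) k
        rw [← hne] at hb hs' t1 t2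
        have hρ' : ∀ x, ρ x = R l (f l x) * R l' (f l' x) := by
          intro x
          rw [hρ x]
          cases l <;> cases l'
          · exact absurd rfl hl
          · rfl
          · exact hR _ _
          · exact absurd rfl hl
        have hR' : ∀ g k, R l g * R l' k = R l' k * R l g := by
          intro g k
          cases l <;> cases l'
          · exact absurd rfl hl
          · exact hR _ _
          · exact (hR _ _).symm
          · exact absurd rfl hl
        exact B.c2 Γ X Y Y K (G j) (G k) (G (σ l j)) V (R l) (R l') (f l) (f l') ρ (f' l) (ρ' l)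
          (f' l') (ρ' l') ω (p j) (p k) (p (σ l j)) (μ j) (μ k) (μ (σ l j)) (h l) (h l') hR' hρ'
          (hd _) (hd _) (hd _) (fac _) (fac _) (fac _) (t l _ _) (t' l _ _) t1 t2 (s l j) hs'
          a b ha hb
    · exact c3 l l' j k hne a b ha hb
  refine B.fin Γ X K (Bool × I) (fun j => G j.2) ρ V ω (fun j => (p j.2).comp (f j.1))
    (fun j => μ j.2)
    (fun j => {a | TwS V (f j.1) ρ ω (p j.2) (p (σ j.1 j.2)) (μ j.2) (μ (σ j.1 j.2)) a})
    (h false).fr (fun j => hdd _ _) (fun j a ha => ha.smo.toFd)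
    (fun j a ha => (B.alg Γ X Y K _ _ V (R j.1) (f j.1) ρ (f' j.1) (ρ' j.1) ω _ _ _ _ (h j.1)
      (hd _) (hd _) a ha).1)
    (fun j a ha y => (B.alg Γ X Y K _ _ V (R j.1) (f j.1) ρ (f' j.1) (ρ' j.1) ω _ _ _ _ (h j.1)
      (hd _) (hd _) a ha).2.1 y)
    (fun j a ha g => (B.alg Γ X Y K _ _ V (R j.1) (f j.1) ρ (f' j.1) (ρ' j.1) ω _ _ _ _ (h j.1)
      (hd _) (hd _) a ha).2.2 g)
    (fun j a ha b hb ζ η => t j.1 _ _ a b ha.smo hb.smo ζ η)
    (fun j => s j.1 j.2)
    (fun j k a ha b hb x y => c j.1 k.1 j.2 k.2 a b ha hb x y)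
    (fun j ξ hξ => B.gal Γ X Y K _ _ V (R j.1) (f j.1) ρ (f' j.1) (ρ' j.1) ω _ _ _ _ (h j.1)
      (hd _) (hd _) (fac _) (fac _) (t _ _ _) (t' _ _ _) (s j.1 j.2) ξ hξ) ?_ ?_
  · intro C hC
    have h1 : ∀ l, {g : Γ | ∀ i, p i g ∈ C (l, i)}.Finite := fun l => by
      have h2 := lat.fin (Set.pi Set.univ fun i => C (l, i)) (isCompact_univ_pi fun i => hC (l, i))
      refine h2.subset fun g hg => ?_
      exact fun i _ => hg i
    have h2 : Function.Injective fun x : X => (f false x, f true x) := by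
      intro x y hxy
      have h3 : x * y⁻¹ = 1 := by
        refine hf _ fun l => ?_
        rw [map_mul, map_inv, mul_inv_eq_one]
        cases l
        · exact congrArg Prod.fst hxy
        · exact congrArg Prod.snd hxy
      exact mul_inv_eq_one.1 h3
    refine Set.Finite.of_finite_image (((h1 false).prod (h1 true)).subset ?_) h2.injOn
    rintro _ ⟨x, hx, rfl⟩
    exact ⟨fun i => hx (false, i), fun i => hx (true, i)⟩
  · intro x hx
    exact hf x fun l => hinj _ fun i => hx (l, i)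

end Vale.Agent.P092.Q
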