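import Vale.Agent.P092.Q.Main
import Vale.Agent.P092.H734.QFlip
import Vale.Agent.P092.H805.Res

/-!
P092, project Q (helper157): the top of the assembly.  The model of a frame `α`, ergodicity at all
places and one nonzero smooth field for every source place give the monomial vector.
-/

set_option linter.all false

open scoped InnerProductSpace Topology ENNReal
open Filter ContinuousLinearMap MeasureTheory

namespace Vale.Agent.P092.Q

open Vale.Agent.P092.H160 Vale.Agent.P092.SR Vale.Agent.P092.H776 Vale.Agent.P092.H156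
open Vale.Agent.P092.H734.Q
open Vale.Agent.P092.H715.Q (Dbl fl F1 TwS)
open Vale.Agent.P092.PA (FacS Lat)

section model

variable {Γ Λ G H : Type} [Group Γ] [Group Λ] {α : Γ →* (Ell2 Λ →L[ℂ] Ell2 Λ)}
  [Group G] [Group H] [TopologicalSpace G] [TopologicalSpace H] [MeasurableSpace G]

theorem swo_one : swo Λ (dl (1 : Λ × Λ)) = dl (1 : Λ × Λ) := rei_dl _ _

theorem norm_swo (v : Ell2 (Λ × Λ)) : ‖swo Λ v‖ = ‖v‖ := by
  have h1 : ⟪swo Λ v, swo Λ v⟫_ℂ = ⟪v, v⟫_ℂ := inner_rei _ _ _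
  rw [inner_self_eq_norm_sq_to_K, inner_self_eq_norm_sq_to_K] at h1
  have h2 : ‖swo Λ v‖ ^ 2 = ‖v‖ ^ 2 := by exact_mod_cast h1
  exact (pow_left_inj₀ (norm_nonneg _) (norm_nonneg _) two_ne_zero).mp h2

theorem norm_swo_le : ‖swo Λ‖ ≤ 1 :=
  ContinuousLinearMap.opNorm_le_bound _ zero_le_one fun u => by rw [norm_swo, one_mul]

theorem norm_swo_conj (T : Ell2 (Λ × Λ) →L[ℂ] Ell2 (Λ × Λ)) : ‖swo Λ * T * swo Λ‖ ≤ ‖T‖ := by
  refine (norm_mul_le _ _).trans ?_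
  have h1 : ‖swo Λ * T‖ ≤ ‖T‖ := by
    refine (norm_mul_le _ _).trans ?_
    calc ‖swo Λ‖ * ‖T‖ ≤ 1 * ‖T‖ := mul_le_mul_of_nonneg_right norm_swo_le (norm_nonneg _)
      _ = ‖T‖ := one_mul _
  calc ‖swo Λ * T‖ * ‖swo Λ‖ ≤ ‖T‖ * 1 := mul_le_mul h1 norm_swo_le (norm_nonneg _) (norm_nonneg _)
    _ = ‖T‖ := mul_one _

theorem swo_mul_V (hα : Frame α) (g : Γ) : swo Λ * VV α g = VV α g * swo Λ := by
  ext1 v
  exact swo_V hα g v

theorem swo_mul_RRR (g h : Γ) : swo Λ * RRR α (h, g) = RRR α (g, h) * swo Λ := by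
  ext1 v
  rw [mul_ap, mul_ap, RRR_apply, RRR_apply, RR₁_RR₂ (α := α) h g, mul_ap, mul_ap, swo_RR₂, swo_RR₁]

/-- The exchange of the legs. -/
theorem smo_swap (hα : Frame α) {p : Γ →* G} {κ : Γ →* H} {μ : Measure G}
    {a : G → Ell2 (Λ × Λ) →L[ℂ] Ell2 (Λ × Λ)}
    (ha : Sm.Smo (p.comp (MonoidHom.fst Γ Γ)) κ (RRR α) (VV α) (dl (1 : Λ × Λ)) μ a) :
    Sm.Smo (p.comp (MonoidHom.snd Γ Γ)) κ (RRR α) (VV α) (dl (1 : Λ × Λ)) μ
      (fun x => swo Λ * a x * swo Λ) where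
  equiv := by
    rintro ⟨g, h⟩ x
    have h1 := ha.equiv (h, g) x
    change a (p h * x) = RRR α (h, g) * a x * RRR α (h, g)⁻¹ at h1
    change swo Λ * a (p h * x) * swo Λ = RRR α (g, h) * (swo Λ * a x * swo Λ) * RRR α (g, h)⁻¹
    have h2 : RRR α (h, g)⁻¹ * swo Λ = swo Λ * RRR α (g, h)⁻¹ :=
      (swo_mul_RRR (α := α) h⁻¹ g⁻¹).symm
    rw [h1]
    calc swo Λ * (RRR α (h, g) * a x * RRR α (h, g)⁻¹) * swo Λ
        = (swo Λ * RRR α (h, g)) * a x * (RRR α (h, g)⁻¹ * swo Λ) := by simp only [mul_assoc]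
      _ = (RRR α (g, h) * swo Λ) * a x * (swo Λ * RRR α (g, h)⁻¹) := by rw [swo_mul_RRR, h2]
      _ = _ := by simp only [mul_assoc]
  bdd := by
    obtain ⟨C, hC⟩ := ha.bdd
    exact ⟨C, fun x => (norm_swo_conj _).trans (hC x)⟩
  rcont ε hε := by
    obtain ⟨U, hU, h⟩ := ha.rcont ε hε
    refine ⟨U, hU, fun y hy x => ?_⟩
    have e : swo Λ * a (x * y) * swo Λ - swo Λ * a x * swo Λ =
        swo Λ * (a (x * y) - a x) * swo Λ := by rw [mul_sub, sub_mul]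
    change ‖swo Λ * a (x * y) * swo Λ - swo Λ * a x * swo Λ‖ ≤ ε
    rw [e]
    exact (norm_swo_conj _).trans (h y hy x)
  acont ε hε := by
    obtain ⟨U, hU, h⟩ := ha.acont ε hε
    refine ⟨U, hU, fun v hv x => ?_⟩
    have e : VV α v * (swo Λ * a x * swo Λ) * VV α v⁻¹ - swo Λ * a x * swo Λ =
        swo Λ * (VV α v * a x * VV α v⁻¹ - a x) * swo Λ := by
      have h3 : VV α v * (swo Λ * a x * swo Λ) * VV α v⁻¹ =
          swo Λ * (VV α v * a x * VV α v⁻¹) * swo Λ := by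
        calc VV α v * (swo Λ * a x * swo Λ) * VV α v⁻¹
            = (VV α v * swo Λ) * a x * (swo Λ * VV α v⁻¹) := by simp only [mul_assoc]
          _ = (swo Λ * VV α v) * a x * (VV α v⁻¹ * swo Λ) := by
            rw [swo_mul_V hα, swo_mul_V hα]
          _ = _ := by simp only [mul_assoc]
      rw [h3, mul_sub, sub_mul]
    change ‖VV α v * (swo Λ * a x * swo Λ) * VV α v⁻¹ - swo Λ * a x * swo Λ‖ ≤ ε
    rw [e]
    exact (norm_swo_conj _).trans (h v hv x)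
  l2 := by
    have h : MemLp (fun x => a x (dl (1 : Λ × Λ))) 2 μ := ha.l2
    have h1 := (swo Λ).comp_memLp' h
    have e : (fun x => (swo Λ * a x * swo Λ) (dl (1 : Λ × Λ))) =
        swo Λ ∘ fun x => a x (dl (1 : Λ × Λ)) := by
      funext x
      change swo Λ (a x (swo Λ (dl (1 : Λ × Λ)))) = swo Λ (a x (dl (1 : Λ × Λ)))
      rw [swo_one]
    change MemLp (fun x => (swo Λ * a x * swo Λ) (dl (1 : Λ × Λ))) 2 μ
    rw [e]
    exact h1

theorem ne_swap (hα : Frame α) {p : Γ →* G} {κ : Γ →* H} {μ : Measure G}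
    (h : ∃ a, Sm.Smo (p.comp (MonoidHom.fst Γ Γ)) κ (RRR α) (VV α) (dl (1 : Λ × Λ)) μ a ∧
      a ≠ 0) :
    ∃ a, Sm.Smo (p.comp (MonoidHom.snd Γ Γ)) κ (RRR α) (VV α) (dl (1 : Λ × Λ)) μ a ∧ a ≠ 0 := by
  obtain ⟨a, ha, h0⟩ := h
  refine ⟨_, smo_swap hα ha, fun h1 => h0 ?_⟩
  funext x
  have h2 : swo Λ * a x * swo Λ = 0 := congrFun h1 x
  have h3 : a x = swo Λ * (swo Λ * a x * swo Λ) * swo Λ := by
    calc a x = (swo Λ * swo Λ) * a x * (swo Λ * swo Λ) := by rw [swo_swo, one_mul, mul_one]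
      _ = _ := by simp only [mul_assoc]
  rw [h3, h2, mul_zero, zero_mul]
  rfl

end model

variable {Γ Λ I : Type} [Group Γ] [Countable Γ] [Group Λ] [Countable Λ]
  {α : Γ →* (Ell2 Λ →L[ℂ] Ell2 Λ)} [Fintype I] {G : I → Type}
  [∀ i, Group (G i)] [∀ i, TopologicalSpace (G i)] [∀ i, IsTopologicalGroup (G i)]
  [∀ i, LocallyCompactSpace (G i)] [∀ i, SecondCountableTopology (G i)] [∀ i, T2Space (G i)]
  [∀ i, MeasurableSpace (G i)] [∀ i, BorelSpace (G i)]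

/-- The legs. -/
noncomputable def legR (α : Γ →* (Ell2 Λ →L[ℂ] Ell2 Λ)) (l : Bool) : Γ →* (Ell2 (Λ × Λ) →L[ℂ] Ell2 (Λ × Λ)) :=
  match l with
  | false => RR₁ α
  | true => RR₂ α

/-- The coordinates of the legs. -/
def legf (Γ : Type) [Group Γ] (l : Bool) : Γ × Γ →* Γ :=
  match l with
  | false => MonoidHom.fst Γ Γ
  | true => MonoidHom.snd Γ Γ

/-- The flipped frames of the legs. -/
noncomputable def legV (hα : Frame α) (l : Bool) :
    Γ × Λ →* (Ell2 (Λ × Λ) →L[ℂ] Ell2 (Λ × Λ)) :=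
  match l with
  | false => RV₁ hα
  | true => RV₂ hα

theorem leg_dbl (hα : Frame α) (l : Bool) : Dbl (VV α) (legR α l) (legf Γ l) (RRR α)
    (MonoidHom.fst Γ Λ) (legV hα l) (dl (1 : Λ × Λ)) := by
  cases l
  · exact dbl_one hα
  · exact dbl_two hα

theorem leg_f1 (hα : Frame α) (l : Bool) {G H : Type} [Group G] [Group H] [TopologicalSpace G]
    [TopologicalSpace H] [MeasurableSpace G] {p : Γ →* G} {κ : Γ →* H} {μ : Measure G}
    (h : F1 (p.comp (legf Γ l)) κ (RRR α) (VV α) (dl (1 : Λ × Λ)) μ) :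
    F1 (p.comp (MonoidHom.fst Γ Λ)) κ (legV hα l) (legR α l) (dl (1 : Λ × Λ)) μ := by
  cases l
  · exact f1_flip (dbl_one hα) (flp_one hα) h
  · exact f1_flip (dbl_two hα) (flp_two hα) h

theorem leg_ne (hα : Frame α) (l : Bool) {G H : Type} [Group G] [Group H] [TopologicalSpace G]
    [TopologicalSpace H] [MeasurableSpace G] {p : Γ →* G} {κ : Γ →* H} {μ : Measure G}
    (h : ∃ a, Sm.Smo (p.comp (MonoidHom.fst Γ Γ)) κ (RRR α) (VV α) (dl (1 : Λ × Λ)) μ a ∧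
      a ≠ 0) :
    (∃ a, Sm.Smo (p.comp (legf Γ l)) κ (RRR α) (VV α) (dl (1 : Λ × Λ)) μ a ∧ a ≠ 0) ∧
    ∃ b, Sm.Smo (p.comp (MonoidHom.fst Γ Λ)) κ (legV hα l) (legR α l) (dl (1 : Λ × Λ)) μ b ∧
      b ≠ 0 := by
  cases l
  · exact ⟨h, ne_flip (dbl_one hα) (flp_one hα) h⟩
  · exact ⟨ne_swap hα h, ne_flip (dbl_two hα) (flp_two hα) (ne_swap hα h)⟩

/-- **The abstract theorem of project Q, in the model of a frame.** -/
theorem Blk.top (B : Blk) (hα : Frame α) (p : ∀ i, Γ →* G i)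
    (μ : ∀ i, Measure (G i)) [∀ i, (μ i).IsHaarMeasure] [∀ i, (μ i).IsMulRightInvariant]
    (m : Measure (∀ i, G i)) (lat : Lat (MonoidHom.pi p) m)
    (fac : ∀ i, FacS (G i)) (hd : ∀ i, DenseRange (p i)) (he : ∀ i k, i ≠ k → Esc (p i) (p k))
    (hinj : ∀ g, (∀ i, p i g = 1) → g = 1)
    (erg : ∀ i, H805.Erg (p i) (RRR α) (VV α) (dl (1 : Λ × Λ)))
    (n : ∀ i, ∃ j a, Sm.Smo ((p j).comp (MonoidHom.fst Γ Γ)) (p i) (RRR α) (VV α)
      (dl (1 : Λ × Λ)) (μ j) a ∧ a ≠ 0) :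
    ∃ w : Ell2 (Λ × Λ), ‖w‖ = 1 ∧
      ∀ g, ∃ (a b : Γ) (z : ℂ), ‖z‖ = 1 ∧ VV α g w = z • RR₁ α a (RR₂ α b w) := by
  have t : ∀ l i j, F1 ((p j).comp (legf Γ l)) (p i) (RRR α) (VV α) (dl (1 : Λ × Λ)) (μ j) :=
    fun l i j => H805.f1_of_erg (frm hα) (erg i)
  have h := B.main (R := legR α) (f := legf Γ) (f' := fun _ => MonoidHom.fst Γ Λ)
    (ρ' := legV hα) p μ m lat fac hd he hinj (leg_dbl hα)
    (fun g k => RR₁_RR₂ g k) (fun x => RRR_apply x) ?_ ?_ t (fun l i j => leg_f1 hα l (t l j i))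
    (fun l i => ?_) fun l j => ?_
  · obtain ⟨w, hw, h1⟩ := h
    refine ⟨w, hw, fun g => ?_⟩
    obtain ⟨x, z, hz, h2⟩ := h1 g
    exact ⟨x.1, x.2, z, hz, by rw [h2, RRR_apply]; rfl⟩
  · intro l
    cases l
    · exact fun g => ⟨(g, 1), rfl⟩
    · exact fun g => ⟨(1, g), rfl⟩
  · intro x hx
    exact Prod.ext (hx false) (hx true)
  · obtain ⟨j, h1⟩ := n i
    obtain ⟨a, ha⟩ := (leg_ne hα l h1).1
    exact ⟨j, a, ha⟩
  · obtain ⟨i, h1⟩ := n j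
    obtain ⟨b, hb⟩ := (leg_ne hα l h1).2
    exact ⟨i, b, hb⟩

end Vale.Agent.P092.Q
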